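import Vale.Agent.P358.H463.Main

set_option autoImplicit false

namespace Vale.Agent.Results.P358.EnergyConstrained

open Vale.Agent.P358

/-- Let `A = gadc γ ν` be a generalized amplitude-damping channel.  (1) The Holevo capacity is
additive under tensor powers, the classical capacity equals the Holevo capacity, and it is the
maximum of the explicit function `phi γ ν` on `[0, 1]`.  (2) For all `n` and all `q₁, …, qₙ` in
`[0, 1]` the largest Holevo quantity of all ensembles of (arbitrary, possibly entangled) `n`-qubit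
inputs in which the mean excited population of the `i`-th qubit is `q_i`, for `n` uses of `A`, is
`phi q₁ + ⋯ + phi qₙ`; mean populations always lie in `[0, 1]`.  (3) `phi` is concave.  (4) The
capacity under an energy constraint: for every `E ≥ 0` the largest Holevo quantity of `n` uses with
at most `n E` excitations in the mean is `n` times the maximum of `phi` on `[0, min E 1]`. -/
theorem result (γ ν : ℝ) (hγ : γ ∈ Set.Icc (0 : ℝ) 1) (hν : ν ∈ Set.Icc (0 : ℝ) 1) :
    ((∀ n : ℕ, BddAbove (holevoSet (tensorPower (gadc γ ν) n))) ∧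
      (∀ n : ℕ, holevo (tensorPower (gadc γ ν) n) = n * holevo (gadc γ ν)) ∧
      capacity (gadc γ ν) = holevo (gadc γ ν) ∧
      IsGreatest (phi γ ν '' Set.Icc 0 1) (capacity (gadc γ ν))) ∧
    ((∀ (n m : ℕ) (w : Fin m → ℝ) (ρ : Fin m → Matrix (Fin n → Fin 2) (Fin n → Fin 2) ℂ),
        IsEnsemble w ρ → ∀ i, meanPopulation w ρ i ∈ Set.Icc (0 : ℝ) 1) ∧
      ∀ (n : ℕ) (q : Fin n → ℝ), (∀ i, q i ∈ Set.Icc (0 : ℝ) 1) →
        IsGreatest {v | ∃ (m : ℕ) (w : Fin m → ℝ)
          (ρ : Fin m → Matrix (Fin n → Fin 2) (Fin n → Fin 2) ℂ),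
          IsEnsemble w ρ ∧ (∀ i, meanPopulation w ρ i = q i) ∧
          v = holevoQuantity (tensorPower (gadc γ ν) n) w ρ} (∑ i, phi γ ν (q i))) ∧
    ConcaveOn ℝ (Set.Icc 0 1) (phi γ ν) ∧
    ∀ E : ℝ, 0 ≤ E →
      IsGreatest (phi γ ν '' Set.Icc 0 (min E 1)) (energyCapacity (gadc γ ν) E) ∧
      ∀ n : ℕ, IsGreatest (energyHolevoSet (gadc γ ν) n E)
        (n * energyCapacity (gadc γ ν) E) := by
  refine ⟨⟨fun n => ⟨n * holevo (gadc γ ν), fun _ hv => mem_holevoSet_le hγ hν n hv⟩,
    holevo_tensorPower hγ hν, capacity_eq_holevo hγ hν, ?_⟩,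
    ⟨fun n m w ρ h i => H463.meanPopulation_mem h i,
      fun n q hq => H463.isGreatest_profile hγ hν q hq⟩, ?_,
    fun E hE => H463.energyCapacity_spec hγ hν hE⟩
  · rw [capacity_eq_holevo hγ hν, H463.phi_eq]
    exact holevo_isGreatest hγ hν
  · rw [H463.phi_eq]
    exact H463.fval_concave hγ hν

end Vale.Agent.Results.P358.EnergyConstrained
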