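import Vale.Agent.P358.MathlibUsed
import Vale.Agent.P358.Defs
import Vale.Agent.P358.DefsBin
import Vale.Agent.P358.H888.Defs
import Vale.Agent.P358.H888.D

set_option autoImplicit false

namespace Vale.Agent.Results.P358.StrongAdditivity

open Vale.Agent.P358

/-- Let `A = gadc γ ν` be a generalized amplitude-damping channel.  (1) The Holevo capacity is
additive under tensor powers, the classical capacity equals the Holevo capacity, and it is the
maximum of an explicit function of one real variable.  (2) For EVERY quantum channel `Ψ` between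
finite-dimensional systems the Holevo capacity, the minimum output entropy and the classical
capacity of `A ⊗ Ψ` are the sums of those of `A` and of `Ψ`.  (3) The minimum output entropy of
`n` uses of `A` is `n` times `h₂((1 + √(1 - 4γν(1-ν)))/2)`. -/
theorem result (γ ν : ℝ) (hγ : γ ∈ Set.Icc (0 : ℝ) 1) (hν : ν ∈ Set.Icc (0 : ℝ) 1) :
    ((∀ n : ℕ, BddAbove (holevoSet (tensorPower (gadc γ ν) n))) ∧
      (∀ n : ℕ, holevo (tensorPower (gadc γ ν) n) = n * holevo (gadc γ ν)) ∧
      capacity (gadc γ ν) = holevo (gadc γ ν) ∧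
      IsGreatest ((fun q : ℝ => h2 ((1 - γ) * q + γ * ν) -
        h2 ((1 + √((1 - 2 * ((1 - γ) * q + γ * ν)) ^ 2 + 4 * (1 - γ) * (q * (1 - q)))) / 2)) ''
        Set.Icc 0 1) (capacity (gadc γ ν))) ∧
    (IsChannel (gadc γ ν) ∧
      ∀ (ι κ : Type) [Fintype ι] [DecidableEq ι] [Nonempty ι] [Fintype κ] [DecidableEq κ]
        (Ψ : Matrix ι ι ℂ →ₗ[ℂ] Matrix κ κ ℂ), IsChannel Ψ →
        IsChannel (tensorMap (gadc γ ν) Ψ) ∧
        BddAbove (holevoSet Ψ) ∧
        BddAbove {x | ∃ n : ℕ, 1 ≤ n ∧ x = holevo (tensorPower Ψ n) / n} ∧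
        holevo (tensorMap (gadc γ ν) Ψ) = holevo (gadc γ ν) + holevo Ψ ∧
        minOutputEntropy (tensorMap (gadc γ ν) Ψ) =
          minOutputEntropy (gadc γ ν) + minOutputEntropy Ψ ∧
        capacity (tensorMap (gadc γ ν) Ψ) = capacity (gadc γ ν) + capacity Ψ) ∧
    ∀ n : ℕ, minOutputEntropy (tensorPower (gadc γ ν) n) =
      n * h2 ((1 + √(1 - 4 * (γ * ν * (1 - ν)))) / 2) := by
  refine ⟨⟨fun n => ⟨n * holevo (gadc γ ν), fun _ hv => mem_holevoSet_le hγ hν n hv⟩,
    holevo_tensorPower hγ hν, capacity_eq_holevo hγ hν, ?_⟩, ⟨gadc_isChannel hγ hν, ?_⟩, ?_⟩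
  · rw [capacity_eq_holevo hγ hν]
    exact holevo_formula hγ hν
  · intro ι κ _ _ _ _ _ Ψ hΨ
    exact ⟨(gadc_isChannel hγ hν).tensorMap hΨ, hΨ.bddAbove, capacitySet_bddAbove hΨ,
      holevo_strong hγ hν hΨ, minOut_strong hγ hν hΨ, capacity_strong hγ hν hΨ⟩
  · intro n
    rw [minOut_tensorPower hγ hν, minOut_formula hγ hν]

end Vale.Agent.Results.P358.StrongAdditivity
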