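import Vale.Agent.P358.MathlibUsed
import Vale.Agent.P358.Defs
import Vale.Agent.P358.DefsBin
import Vale.Agent.P358.H697.DefsS
import Vale.Agent.P358.H697.Fin

set_option autoImplicit false

namespace Vale.Agent.Results.P358.StrongConverse

open Vale.Agent.P358
open scoped ComplexOrder

/-- Let `A = gadc γ ν` be a generalized amplitude-damping channel.  (1) The Holevo capacity is
additive under tensor powers, the classical capacity equals the Holevo capacity, and it is the
maximum of an explicit function of one real variable.  (2) Strong converse: above the capacity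
the average success probability of every code, with entangled inputs and collective decoding,
decays exponentially in the number of uses.  (3) The maximal output power traces, `1 ≤ s ≤ 2`,
are multiplicative, with closed form. -/
theorem result (γ ν : ℝ) (hγ : γ ∈ Set.Icc (0 : ℝ) 1) (hν : ν ∈ Set.Icc (0 : ℝ) 1) :
    ((∀ n : ℕ, BddAbove (holevoSet (tensorPower (gadc γ ν) n))) ∧
      (∀ n : ℕ, holevo (tensorPower (gadc γ ν) n) = n * holevo (gadc γ ν)) ∧
      capacity (gadc γ ν) = holevo (gadc γ ν) ∧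
      IsGreatest ((fun q : ℝ => h2 ((1 - γ) * q + γ * ν) -
        h2 ((1 + √((1 - 2 * ((1 - γ) * q + γ * ν)) ^ 2 + 4 * (1 - γ) * (q * (1 - q)))) / 2)) ''
        Set.Icc 0 1) (capacity (gadc γ ν))) ∧
    (∀ R : ℝ, capacity (gadc γ ν) < R → ∃ K c : ℝ, 0 < K ∧ 0 < c ∧
      ∀ n M : ℕ, (2 : ℝ) ^ (n * R) ≤ M →
        ∀ ρ E : Fin M → Matrix (Fin n → Fin 2) (Fin n → Fin 2) ℂ,
          (∀ m, IsState (ρ m)) → (∀ m, (E m).PosSemidef) → (1 - ∑ m, E m).PosSemidef →
          (∑ m, (E m * tensorPower (gadc γ ν) n (ρ m)).trace.re) / M ≤ K * 2 ^ (-(c * n))) ∧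
    ∀ s ∈ Set.Icc (1 : ℝ) 2, ∀ n : ℕ,
      IsGreatest {x | ∃ ρ : Matrix (Fin n → Fin 2) (Fin n → Fin 2) ℂ, IsState ρ ∧
          x = traceRpow s (tensorPower (gadc γ ν) n ρ)}
        ((((1 + √(1 - 4 * (γ * ν * (1 - ν)))) / 2) ^ s +
          ((1 - √(1 - 4 * (γ * ν * (1 - ν)))) / 2) ^ s) ^ n) := by
  refine ⟨⟨fun n => ⟨n * holevo (gadc γ ν), fun _ hv => mem_holevoSet_le hγ hν n hv⟩,
    holevo_tensorPower hγ hν, capacity_eq_holevo hγ hν, ?_⟩,
    fun R hR => SC.strong_converse hγ hν hR, SC.maxOut' hγ hν⟩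
  rw [capacity_eq_holevo hγ hν]
  exact holevo_formula hγ hν

end Vale.Agent.Results.P358.StrongConverse
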